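import Vale.Agent.P144Z.Top
import Vale.Agent.P144Z.I1.Cyc

/-!
The signs of the contours.
-/

namespace Vale.Agent.P144Z

open Finset Matrix

section H2
variable {M : ℕ} [NeZero M]

set_option linter.unusedVariables false in
/-- The signs of the contours. -/
theorem cw_sum (hM : 4 ≤ M) (Φ : (Tor M × Fin 2 → Bool) → ℝ) :
    ∑ n, cw n * Φ n = (1 / 2) * ∑ σ : Tor M → Bool, ∑ c : Bool × Bool,
      (if c = (false, false) then 1 else -1) * Φ (fun e => xor (dom σ e) (cyc c e)) := by
  have h := I1.sum_cw Φ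
  simp only [smul_eq_mul, Finset.mul_sum] at h
  rw [Finset.sum_comm, ← h, ← Finset.mul_sum]
  ring
end H2

end Vale.Agent.P144Z
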